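import Vale.Agent.P284.H573.DK.FinRep

/-!
# P284 (helper378), theorem T2: groups whose finite dimensional real representations have finite range
-/

noncomputable section

namespace Vale.Agent.P284.H378.T

open Vale.Agent.P272.K Vale.Agent.P284.H894.V Vale.Agent.P284.H894.G Vale.Agent.P284.H573.DK

variable {K : Type} [Group K]

/-- functions on `K` which are affine along `φ` on the cosets of `H` -/
def Aff (H : Subgroup K) (φ : H → ℝ) : Submodule ℝ (K → ℝ) where
  carrier := {f | ∃ a : K ⧸ H → ℝ, ∀ (g : K) (h : H), f (g * h) = f g + a g * φ h}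
  add_mem' := by
    rintro f f' ⟨a, ha⟩ ⟨a', ha'⟩
    refine ⟨a + a', fun g h => ?_⟩
    simp only [Pi.add_apply, ha, ha']
    ring
  zero_mem' := ⟨0, fun g h => by simp⟩
  smul_mem' := by
    rintro r f ⟨a, ha⟩
    refine ⟨r • a, fun g h => ?_⟩
    simp only [Pi.smul_apply, smul_eq_mul, ha]
    ring

theorem aff_fd {H : Subgroup K} (hfi : H.FiniteIndex) {φ : H → ℝ} {h₀ : H} (h0 : φ h₀ = 1) :
    FiniteDimensional ℝ (Aff H φ) := by
  have : Finite (K ⧸ H) := Subgroup.finite_quotient_of_finiteIndex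
  let T : Aff H φ →ₗ[ℝ] ((K ⧸ H → ℝ) × (K ⧸ H → ℝ)) :=
    { toFun := fun f => (fun x => f.1 x.out, fun x => f.1 (x.out * h₀) - f.1 x.out)
      map_add' := fun f f' => by
        refine Prod.ext ?_ ?_ <;> funext x <;>
          simp only [Submodule.coe_add, Pi.add_apply, Prod.mk_add_mk] <;> ring
      map_smul' := fun r f => by
        refine Prod.ext ?_ ?_ <;> funext x <;>
          simp only [Submodule.coe_smul, Pi.smul_apply, smul_eq_mul, RingHom.id_apply,
            Prod.smul_mk] <;> ring }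
  refine FiniteDimensional.of_injective T ?_
  rw [injective_iff_map_eq_zero]
  rintro ⟨f, a, ha⟩ hf
  have h1 : ∀ x : K ⧸ H, f x.out = 0 := fun x => congrFun (congrArg Prod.fst hf) x
  have h2 : ∀ x : K ⧸ H, f (x.out * h₀) - f x.out = 0 := fun x => congrFun (congrArg Prod.snd hf) x
  refine Subtype.ext ?_
  funext g
  show f g = 0
  obtain ⟨h, hh⟩ := QuotientGroup.mk_out_eq_mul H g
  have h3 := ha (g : K ⧸ H).out h⁻¹
  rw [hh] at h3
  have h4 : g * (h : K) * ((h⁻¹ : H) : K) = g := by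
    rw [mul_assoc, Subgroup.coe_inv, mul_inv_cancel, mul_one]
  rw [h4] at h3
  have h5 := ha (g : K ⧸ H).out h₀
  have h6 := h2 (g : K ⧸ H)
  have h7 := h1 (g : K ⧸ H)
  rw [hh] at h5 h6 h7
  rw [h5, h0, mul_one, add_sub_cancel_left] at h6
  rw [h7, h6, zero_mul, add_zero] at h3
  exact h3

/-- A group all of whose finite dimensional real representations have finite range has no subgroup of
finite index mapping onto `ℤ`. -/
theorem finRep_nvi (hfr : FinRep K) : ¬ VirtIndicable K := by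
  classical
  rintro ⟨H, hfi, ψ, hψ⟩
  obtain ⟨h₀, h0⟩ := hψ (Multiplicative.ofAdd 1)
  let φ : H → ℝ := fun h => ((Multiplicative.toAdd (ψ h) : ℤ) : ℝ)
  have hφ0 : φ h₀ = 1 := by
    show ((Multiplicative.toAdd (ψ h₀) : ℤ) : ℝ) = 1
    rw [h0]; simp
  have hφ : ∀ h h', φ (h * h') = φ h + φ h' := by
    intro h h'
    show ((Multiplicative.toAdd (ψ (h * h')) : ℤ) : ℝ) = _
    rw [map_mul, toAdd_mul, Int.cast_add]
  have := aff_fd hfi hφ0
  -- left translations
  let τ : K → (Aff H φ →ₗ[ℝ] Aff H φ) := fun k =>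
    { toFun := fun f => ⟨fun g => f.1 (k⁻¹ * g), by
        obtain ⟨a, ha⟩ := f.2
        refine ⟨fun x => a (k⁻¹ • x), fun g h => ?_⟩
        have := ha (k⁻¹ * g) h
        rw [mul_assoc] at this
        exact this⟩
      map_add' := fun f f' => rfl
      map_smul' := fun r f => rfl }
  let ρ : K →* (Aff H φ →ₗ[ℝ] Aff H φ) :=
    { toFun := τ
      map_one' := by
        refine LinearMap.ext fun f => Subtype.ext ?_
        funext g
        show f.1 (1⁻¹ * g) = f.1 g
        rw [inv_one, one_mul]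
      map_mul' := fun k k' => by
        refine LinearMap.ext fun f => Subtype.ext ?_
        funext g
        show f.1 ((k * k')⁻¹ * g) = f.1 (k'⁻¹ * (k⁻¹ * g))
        rw [mul_inv_rev, mul_assoc] }
  have hfin := hfr (Aff H φ) ρ
  -- the function `φ` on `H`, zero elsewhere
  let f₀ : Aff H φ := ⟨fun g => if hg : g ∈ H then φ ⟨g, hg⟩ else 0,
    fun x => if x = ((1 : K) : K ⧸ H) then 1 else 0, fun g h => by
      by_cases hg : g ∈ H
      · have h1 : g * h ∈ H := H.mul_mem hg h.2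
        have h2 : ((g : K ⧸ H)) = ((1 : K) : K ⧸ H) := by
          rw [QuotientGroup.eq]
          simpa using H.inv_mem hg
        simp only [dif_pos hg, dif_pos h1, if_pos h2]
        rw [one_mul, ← hφ]
        rfl
      · have h1 : g * h ∉ H := fun hh => hg (by
          have := H.mul_mem hh (H.inv_mem h.2)
          rwa [mul_assoc, mul_inv_cancel, mul_one] at this)
        have h2 : ((g : K ⧸ H)) ≠ ((1 : K) : K ⧸ H) := by
          rw [Ne, QuotientGroup.eq]
          intro hh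
          have := H.inv_mem hh
          simp only [mul_one, inv_inv] at this
          exact hg this
        simp only [dif_neg hg, dif_neg h1, if_neg h2]
        ring⟩
  have hinj : Function.Injective fun m : ℕ => ρ ((h₀ : K) ^ m)⁻¹ := by
    intro m m' hmm
    have h1 : (ρ ((h₀ : K) ^ m)⁻¹ f₀).1 1 = (ρ ((h₀ : K) ^ m')⁻¹ f₀).1 1 := by
      have : ρ ((h₀ : K) ^ m)⁻¹ = ρ ((h₀ : K) ^ m')⁻¹ := hmm
      rw [this]
    have h2 : ∀ l : ℕ, (ρ ((h₀ : K) ^ l)⁻¹ f₀).1 1 = l := by
      intro l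
      show (if hg : (((h₀ : K) ^ l)⁻¹)⁻¹ * 1 ∈ H then φ ⟨_, hg⟩ else 0) = (l : ℝ)
      have h3 : (((h₀ : K) ^ l)⁻¹)⁻¹ * 1 ∈ H := by
        rw [inv_inv, mul_one]
        exact H.pow_mem h₀.2 l
      rw [dif_pos h3]
      have h4 : (⟨(((h₀ : K) ^ l)⁻¹)⁻¹ * 1, h3⟩ : H) = h₀ ^ l := by
        refine Subtype.ext ?_
        show (((h₀ : K) ^ l)⁻¹)⁻¹ * 1 = ((h₀ ^ l : H) : K)
        rw [inv_inv, mul_one, Subgroup.coe_pow]
      rw [h4]
      show ((Multiplicative.toAdd (ψ (h₀ ^ l)) : ℤ) : ℝ) = l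
      rw [map_pow, h0]
      simp
    rw [h2, h2] at h1
    exact_mod_cast h1
  exact Set.infinite_range_of_injective hinj (hfin.subset (by
    rintro _ ⟨m, rfl⟩
    exact ⟨_, rfl⟩))

end Vale.Agent.P284.H378.T
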