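import Vale.Agent.P284.H619.NulP
import Vale.Agent.P284.H221.C7
import Vale.Agent.P284.H378.T.FR

/-!
# P284 (helper378), theorem T2: module NUL for groups whose finite dimensional real representations have
finite range (after helper619's `nulStmt`)
-/

open scoped Manifold ContDiff Topology InnerProductSpace ComplexConjugate Pointwise
open Filter Set Metric

noncomputable section

namespace Vale.Agent.P284.H378.T

open Vale.Agent.P272.K Vale.Agent.P284.H894.G Vale.Agent.P284.H894.V Vale.Agent.P284.H894.W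
  Vale.Agent.P284.H213.Grp Vale.Agent.P284.H619

theorem exists_trivial_subF {Γ : Type} [Group Γ] {K : Subgroup Γ} (hfr : H573.DK.FinRep K)
    {W : Type*} [AddCommGroup W] [Module ℝ W] (T : Γ → W → W)
    (V : Submodule ℝ W) (hV : FiniteDimensional ℝ V)
    (hmap : ∀ k ∈ K, ∀ v ∈ V, T k v ∈ V)
    (hadd : ∀ k ∈ K, ∀ v ∈ V, ∀ v' ∈ V, T k (v + v') = T k v + T k v')
    (hsmul : ∀ k ∈ K, ∀ (c : ℝ), ∀ v ∈ V, T k (c • v) = c • T k v)
    (hone : ∀ v ∈ V, T 1 v = v)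
    (hmul : ∀ k ∈ K, ∀ k' ∈ K, ∀ v ∈ V, T (k * k') v = T k (T k' v)) :
    ∃ K' : Subgroup Γ, K' ≤ K ∧ (K'.subgroupOf K).FiniteIndex ∧ ∀ k ∈ K', ∀ v ∈ V, T k v = v := by
  obtain ⟨L, h1, -, h3⟩ := H573.DK.exists_trivial_onF hfr
    (fun k : K => T k) V hV (fun k => hmap k k.2) (fun k => hadd k k.2) (fun k => hsmul k k.2)
    hone (fun k k' => hmul k k.2 k' k'.2)
  refine ⟨L.map K.subtype, ?_, ?_, ?_⟩
  · rintro _ ⟨k, -, rfl⟩
    exact k.2
  · have h4 : (L.map K.subtype).subgroupOf K = L := by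
      ext k
      rw [Subgroup.mem_subgroupOf, Subgroup.mem_map]
      constructor
      · rintro ⟨l, hl, hlk⟩
        have : l = k := Subtype.ext hlk
        rwa [← this]
      · intro hk
        exact ⟨k, hk, rfl⟩
    rw [h4]
    exact h1
  · rintro _ ⟨k, hk, rfl⟩ v hv
    exact h3 k hk v hv

/-- **NUL**, for `K` finitely generated with `FinRep K`. -/
theorem nulF {n q : ℕ} {X : Type} [TopologicalSpace X] [T2Space X]
    [ChartedSpace (Cm n) X] [IsManifold 𝓘(ℂ, Cm n) ω X] {E Γ : Type} [TopologicalSpace E]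
    [Group Γ] [MulAction Γ E] {p : E → X} (hG : IsGalois Γ p) {F : E → Cm q} {K : Subgroup Γ}
    (hF : HolE n p F) (hF0 : ∀ k ∈ K, ∀ y, F (k • y) = F y) (hfg : Group.FG K)
    (hfr : H573.DK.FinRep K) {t : Cm q}
    (hcpt : ∀ K' : Subgroup Γ, K' ≤ K → (K'.subgroupOf K).FiniteIndex →
      ∃ D : Set E, IsCompact D ∧ ∀ y : E, F y = t → ∃ k ∈ K', k • y ∈ D)
    (hcon : IsConnected (F ⁻¹' {t})) (hreg : ∀ y, F y = t → Reg (n := n) p F y)
    {W : Type} [NormedAddCommGroup W] [InnerProductSpace ℂ W] [CompleteSpace W]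
    {π : Γ →* (W ≃ₗᵢ[ℂ] W)} {Θ : E → Chart n X → (Cm n →L[ℂ] W)} {u : E → W}
    (hΘ : VPot p F t W Θ u) (hE : VEqui p F t K π Θ u) (y₀ : E) (hy₀ : F y₀ = t) (v : W)
    (hv : ∀ᶠ y in 𝓝 y₀, F y = t → ∃ e, At e (p y) ∧ ∃ ξ ∈ VS p F y e, Θ y e ξ = v) : v = 0 := by
  have hnvi := finRep_nvi hfr
  have hp := hG.cov
  obtain ⟨r, hr, y₁, e₁, hy₁, he₁, hrk₁⟩ := exists_max (p := p) (F := F) (Θ := Θ) hy₀
  have hvN : v ∈ NN p F Θ t r :=
    mem_NN_of hp hF hcon.isPreconnected hreg hΘ hr hy₀ hv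
  have hNle : NN p F Θ t r ≤ imV p F Θ y₁ e₁ := fun w hw => mem_NN.1 hw y₁ e₁ hy₁ he₁ hrk₁
  have hfdC : FiniteDimensional ℂ (NN p F Θ t r) := Submodule.finiteDimensional_of_le hNle
  have hfd : FiniteDimensional ℝ ((NN p F Θ t r).restrictScalars ℝ) :=
    inferInstanceAs (FiniteDimensional ℝ (NN p F Θ t r))
  obtain ⟨K', hK'K, hfi, htriv⟩ := exists_trivial_subF (K := K) hfr
    (fun g w => π g w) ((NN p F Θ t r).restrictScalars ℝ) hfd
    (fun k hk w hw => NN_smul hG hF0 hE hk hw)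
    (fun k _ w _ w' _ => map_add _ _ _)
    (fun k _ a w _ => by
      have := (π k).map_smul (a : ℂ) w
      simpa using this)
    (fun w _ => by rw [map_one]; rfl)
    (fun k _ k' _ w _ => by rw [map_mul]; rfl)
  obtain ⟨D, hD, hDcov⟩ := hcpt K' hK'K hfi
  -- the periods vanish
  have hper : ∀ w ∈ NN p F Θ t r, ∀ k ∈ K', ∀ y, F y = t → ⟪w, u (k • y)⟫_ℂ = ⟪w, u y⟫_ℂ := by
    intro w hw
    have hb : ∀ k : Γ, ∃ b : W, k ∈ K → ∀ y, F y = t → u (k • y) = π k (u y) + b := by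
      intro k
      by_cases hk : k ∈ K
      · obtain ⟨b, hb⟩ := hE.pot k hk
        exact ⟨b, fun _ => hb⟩
      · exact ⟨0, fun h => absurd h hk⟩
    choose b hb using hb
    have h1 : ∀ k ∈ K', ∀ y, F y = t → ⟪w, u (k • y)⟫_ℂ = ⟪w, u y⟫_ℂ + ⟪w, b k⟫_ℂ := by
      intro k hk y hy
      rw [hb k (hK'K hk) y hy, inner_add_right]
      congr 1
      have h2 : π k w = w := htriv k hk w hw
      calc ⟪w, π k (u y)⟫_ℂ = ⟪π k w, π k (u y)⟫_ℂ := by rw [h2]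
        _ = ⟪w, u y⟫_ℂ := (π k).inner_map_map _ _
    have h2 : ∀ k ∈ K', ∀ k' ∈ K', ⟪w, b (k * k')⟫_ℂ = ⟪w, b k⟫_ℂ + ⟪w, b k'⟫_ℂ := by
      intro k hk k' hk'
      have e1 := h1 (k * k') (K'.mul_mem hk hk') y₀ hy₀
      have e2 := h1 k hk (k' • y₀) (by rw [hF0 k' (hK'K hk'), hy₀])
      have e3 := h1 k' hk' y₀ hy₀
      rw [mul_smul, e2, e3] at e1
      have e4 : ⟪w, b k'⟫_ℂ + ⟪w, b k⟫_ℂ = ⟪w, b (k * k')⟫_ℂ := by
        rw [add_assoc] at e1
        exact add_left_cancel e1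
      rw [← e4, add_comm]
    have h3 := Vale.Agent.P284.H221.hom_zero_sub (K := K) hfg hnvi hK'K hfi
      (fun k => ⟪w, b k⟫_ℂ) h2
    intro k hk y hy
    rw [h1 k hk y hy, h3 k hk, add_zero]
  -- `Re ⟪w, u⟫` is constant on the fibre
  have hre : ∀ w ∈ NN p F Θ t r, ∃ M : ℝ, ∀ y, F y = t → (⟪w, u y⟫_ℂ).re = M := by
    intro w hw
    refine re_const hp hF hcon hreg (fun y e hy he => ?_) hD (fun y hy => ?_)
    · obtain ⟨g, h, hg, hh, hev⟩ := hΘ.pot y e hy he w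
      refine ⟨fun z => g z + h z, hg.add hh, ?_⟩
      filter_upwards [hev] with y' k1 k2
      rw [(k1 k2).1, Complex.add_re, Complex.add_re, Complex.conj_re]
    · obtain ⟨k, hk, hkD⟩ := hDcov y hy
      exact ⟨k • y, hkD, by rw [hF0 k (hK'K hk), hy], by rw [hper w hw k hk y hy]⟩
  -- hence `⟪w, u⟫` is constant
  have hco : ∃ M : ℂ, ∀ y, F y = t → ⟪v, u y⟫_ℂ = M := by
    obtain ⟨M₁, h1⟩ := hre v hvN
    obtain ⟨M₂, h2⟩ := hre ((Complex.I : ℂ) • v) (Submodule.smul_mem _ _ hvN)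
    refine ⟨⟨M₁, M₂⟩, fun y hy => Complex.ext (h1 y hy) ?_⟩
    have h3 := h2 y hy
    rw [inner_smul_left, Complex.conj_I] at h3
    simpa using h3
  obtain ⟨M, hM⟩ := hco
  -- the derivative at `y₁`
  obtain ⟨ξ, hξ, hξv⟩ := hNle hvN
  obtain ⟨g, h, hg, hh, hev⟩ := hΘ.pot y₁ e₁ hy₁ he₁ v
  obtain ⟨f, ψ, φ, ε, hpar⟩ := exists_Par hp hF hy₁ he₁ (hreg y₁ hy₁)
  have h0 : AnalyticAt ℂ ψ 0 := hpar.an 0 (mem_ball_self hpar.pos)
  have h1 : ∀ᶠ z in 𝓝 (0 : Cm n), g (ψ z) + conj (h (ψ z)) = M := by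
    refine hpar.germ0 hp hy₁ (Q := fun z => g z + conj (h z) = M) ?_
    filter_upwards [hev] with y' k1 k2
    rw [← (k1 k2).1, hM y' k2]
  have hgψ : AnalyticAt ℂ (fun z => g (ψ z)) 0 :=
    AnalyticAt.fun_comp (by rw [hpar.ψ0]; exact hg) h0
  have hhψ : AnalyticAt ℂ (fun z => h (ψ z)) 0 :=
    AnalyticAt.fun_comp (by rw [hpar.ψ0]; exact hh) h0
  have h2 : ∀ η, fderiv ℂ (fun z => g (ψ z)) 0 η = 0 := by
    have d1 := hgψ.differentiableAt.hasFDerivAt.restrictScalars ℝ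
    have d2 := hhψ.differentiableAt.hasFDerivAt.restrictScalars ℝ
    have d3 : HasFDerivAt (fun z => g (ψ z) + conj (h (ψ z)))
        ((fderiv ℂ (fun z => g (ψ z)) 0).restrictScalars ℝ +
          (Complex.conjCLE : ℂ →L[ℝ] ℂ).comp ((fderiv ℂ (fun z => h (ψ z)) 0).restrictScalars ℝ))
        0 := d1.add ((Complex.conjCLE : ℂ →L[ℝ] ℂ).hasFDerivAt.comp (0 : Cm n) d2)
    have d4 : HasFDerivAt (fun z => g (ψ z) + conj (h (ψ z))) (0 : Cm n →L[ℝ] ℂ) 0 :=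
      (hasFDerivAt_const M (0 : Cm n)).congr_of_eventuallyEq h1
    have d5 := d3.unique d4
    intro η
    have e1 := DFunLike.congr_fun d5 η
    have e2 := DFunLike.congr_fun d5 (Complex.I • η)
    have e1' : fderiv ℂ (fun z => g (ψ z)) 0 η + conj (fderiv ℂ (fun z => h (ψ z)) 0 η) = 0 := e1
    have e2' : fderiv ℂ (fun z => g (ψ z)) 0 (Complex.I • η) +
        conj (fderiv ℂ (fun z => h (ψ z)) 0 (Complex.I • η)) = 0 := e2
    rw [map_smul, map_smul, smul_eq_mul, smul_eq_mul, map_mul, Complex.conj_I] at e2'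
    have e3 : Complex.I * (fderiv ℂ (fun z => g (ψ z)) 0 η -
        conj (fderiv ℂ (fun z => h (ψ z)) 0 η)) = 0 := by
      rw [mul_sub, ← e2']; ring
    have e4 := (mul_eq_zero.1 e3).resolve_left Complex.I_ne_zero
    have e5 : 2 * fderiv ℂ (fun z => g (ψ z)) 0 η = 0 := by
      linear_combination e1' + e4
    exact (mul_eq_zero.1 e5).resolve_left two_ne_zero
  -- conclusion
  obtain ⟨-, -, hv3⟩ := hpar.near.self_of_nhds hy₁
  rw [hpar.φ0] at hv3
  have h3 := (hev.self_of_nhds hy₁).2 ξ hξ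
  have h4 : fderiv ℂ g (e₁ (p y₁)) ξ = 0 := by
    have h5 : HasFDerivAt (fun z => g (ψ z)) ((fderiv ℂ g (e₁ (p y₁))).comp (fderiv ℂ ψ 0)) 0 := by
      refine HasFDerivAt.comp (0 : Cm n) (g := g) (f := ψ) ?_ h0.differentiableAt.hasFDerivAt
      rw [hpar.ψ0]
      exact hg.differentiableAt.hasFDerivAt
    have h6 := h2 (fderiv ℂ φ (e₁ (p y₁)) ξ)
    rw [h5.fderiv, ContinuousLinearMap.comp_apply, hv3 ξ hξ] at h6
    exact h6
  have h5 : Θ y₁ e₁ ξ = v := hξv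
  rw [h4, h5] at h3
  exact inner_self_eq_zero.1 h3.symm


section
variable {n : ℕ} {X : Type} [TopologicalSpace X] [ChartedSpace (Cm n) X]
  {E Γ : Type} [TopologicalSpace E] [Group Γ] [MulAction Γ E] {p : E → X}

/-- `q = 0`: functions with values in a point -/
theorem holE_zero (hp : IsCoveringMap p) (F : E → Cm 0) : HolE n p F := by
  intro y e he
  exact ⟨fun _ => 0, Eventually.of_forall fun y' => Subsingleton.elim _ _, analyticAt_const⟩

theorem reg_zero (F : E → Cm 0) (y : E) : Reg (n := n) p F y :=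
  fun _ _ _ _ _ => ⟨0, Subsingleton.elim _ _⟩

theorem finRep_top (hfr : H573.DK.FinRep Γ) : H573.DK.FinRep (⊤ : Subgroup Γ) := by
  intro V _ _ _ ρ
  have h1 := hfr V (ρ.comp (Subgroup.topEquiv (G := Γ)).symm.toMonoidHom)
  refine h1.subset ?_
  rintro _ ⟨k, rfl⟩
  exact ⟨Subgroup.topEquiv k, congrArg ρ (Subgroup.topEquiv.symm_apply_apply k)⟩

/-- compact sets meeting all orbits of a subgroup of finite index -/
theorem cpt_zero {X : Type} [TopologicalSpace X] {E Γ : Type} [TopologicalSpace E] [Group Γ]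
    [MulAction Γ E] {p : E → X} [T2Space X] [CompactSpace X] [Nonempty E] (hp : IsGalois Γ p)
    (F : E → Cm 0)
    {K' : Subgroup Γ} (hfi : (K'.subgroupOf ⊤).FiniteIndex) (t : Cm 0) :
    ∃ D : Set E, IsCompact D ∧ ∀ y : E, F y = t → ∃ k ∈ K', k • y ∈ D := by
  have hfi' : K'.FiniteIndex := by
    rw [Subgroup.finiteIndex_iff] at hfi ⊢
    rwa [← Subgroup.relIndex, Subgroup.relIndex_top_right] at hfi
  have : Finite (Γ ⧸ K') := Subgroup.finite_quotient_of_finiteIndex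
  have hFc : Continuous F := by
    have : F = fun _ => 0 := funext fun _ => Subsingleton.elim _ _
    rw [this]
    exact continuous_const
  obtain ⟨C, h1, h2⟩ := H221.exists_fund_K hp hFc
    (c := fun _ : Γ => (0 : Cm 0)) (fun g y => Subsingleton.elim _ _) (fun R => Set.toFinite _) K'
    ⟨Set.range (Quotient.out : Γ ⧸ K' → Γ), Set.finite_range _, fun g _ =>
      ⟨(g : Γ ⧸ K').out, ⟨_, rfl⟩, by
        have := QuotientGroup.out_eq' (g : Γ ⧸ K')
        rwa [QuotientGroup.eq] at this⟩⟩ 0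
  exact ⟨C, h1, fun y _ => h2 y (by rw [Subsingleton.elim (F y) 0, norm_zero])⟩

theorem conn_zero [ConnectedSpace E] (F : E → Cm 0) (t : Cm 0) : IsConnected (F ⁻¹' {t}) := by
  have : F ⁻¹' {t} = univ := eq_univ_of_forall fun y => Subsingleton.elim _ _
  rw [this]
  exact isConnected_univ

/-- **NUL**, `q = 0`. -/
theorem nul0 [T2Space X] [CompactSpace X] [IsManifold 𝓘(ℂ, Cm n) ω X] [ConnectedSpace E]
    (hG : IsGalois Γ p) (hfg : Group.FG Γ) (hfr : H573.DK.FinRep Γ) {F : E → Cm 0} {t : Cm 0}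
    {W : Type} [NormedAddCommGroup W] [InnerProductSpace ℂ W] [CompleteSpace W]
    {π : Γ →* (W ≃ₗᵢ[ℂ] W)} {Θ : E → Chart n X → (Cm n →L[ℂ] W)} {u : E → W}
    (hΘ : VPot p F t W Θ u) (hE : VEqui p F t ⊤ π Θ u) (y₀ : E) (v : W)
    (hv : ∀ᶠ y in 𝓝 y₀, F y = t → ∃ e, At e (p y) ∧ ∃ ξ ∈ VS p F y e, Θ y e ξ = v) : v = 0 :=
  nulF hG (holE_zero hG.cov F) (fun _ _ _ => Subsingleton.elim _ _)
    (Group.fg_iff_subgroup_fg _ |>.2 (Group.fg_def.1 hfg)) (finRep_top hfr)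
    (fun _ _ hfi => cpt_zero hG F hfi t) (conn_zero F t) (fun y _ => reg_zero F y) hΘ hE y₀
    (Subsingleton.elim _ _) v hv

end

end Vale.Agent.P284.H378.T
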