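import Vale.Agent.P284.H378.T.NulF
import Vale.Agent.P284.H378.LF
import Vale.Agent.P284.H378.LFin
import Vale.Agent.P284.H212.LF
import Vale.Agent.P284.H221.GFS
import Vale.Agent.P284.H885.DK5

/-!
# P284 (helper378), theorem T2: local finiteness of the sheets, `q = 0`, modulo the kernel of the
representation, for groups whose finite dimensional real representations have finite range
-/

open scoped Manifold ContDiff Topology InnerProductSpace ComplexConjugate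
open Filter Set Metric

noncomputable section

set_option linter.unusedSectionVars false

namespace Vale.Agent.P284.H378.T

open Vale.Agent.P272.K Vale.Agent.P284.H894 Vale.Agent.P284.H894.G Vale.Agent.P284.H894.V
  Vale.Agent.P284.H894.W Vale.Agent.P284.H573 Vale.Agent.P284.H213.Grp Vale.Agent.P284.H395
  Vale.Agent.P284.H619 Vale.Agent.P284.H625 Vale.Agent.P284.H378 Vale.Agent.P284.H837

section
variable {n : ℕ} {X : Type} [TopologicalSpace X] [ChartedSpace (Cm n) X]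
  {E Γ : Type} [TopologicalSpace E] [Group Γ] [MulAction Γ E] {p : E → X}

theorem holB_zero (w : Chart n X → Cm n → Matrix (Fin n) (Fin n) ℂ) (F : E → Cm 0) :
    HolB p w F 0 := by
  intro y e he
  refine ⟨fun _ => 0, Eventually.of_forall fun y' => Subsingleton.elim _ _,
    Eventually.of_forall fun z => differentiableAt_const _, fun v => ?_⟩
  rw [Subsingleton.elim (fderiv ℂ (fun _ : Cm n => (0 : Cm 0)) (e (p y)) v) 0, norm_zero, zero_mul]
  norm_num

variable [T2Space X] [CompactSpace X] [ConnectedSpace X] [IsManifold 𝓘(ℂ, Cm n) ω X]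
  [ConnectedSpace E]
  {W : Type} [NormedAddCommGroup W] [InnerProductSpace ℂ W] [CompleteSpace W]
  {H : Type} [NormedAddCommGroup H] [InnerProductSpace ℂ H] [CompleteSpace H]
  {F : E → Cm 0} {π : Γ →* (W ≃ₗᵢ[ℂ] W)} {Θ : E → Chart n X → (Cm n →L[ℂ] W)} {u : E → W}

/-- **D_K**, `q = 0`. -/
theorem dk0 (hp : IsGalois Γ p) (hfg : Group.FG Γ) (hfr : H573.DK.FinRep Γ) {t : Cm 0}
    (hpot : VPot p F t W Θ u) (hequi : VEqui p F t ⊤ π Θ u)
    {𝒢 : Set E} (hG : Thin n p 𝒢) (hGinv : ∀ (g : Γ), ∀ y ∈ 𝒢, g • y ∈ 𝒢)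
    {r : ℕ} {V : ℕ → (W →ₗᵢ[ℂ] W)} (hs : ∀ z ∈ 𝒢, SlideAt n p F Θ r V z) :
    ∀ᶠ j in atTop, ∀ y e, At e (p y) → ∀ ξ, V j (Θ y e ξ) = Θ y e ξ := by
  have hVS : ∀ y (e : Chart n X) ξ, At e (p y) → ξ ∈ VS p F y e := by
    intro y e ξ he
    refine (mem_VS hp.cov he (f := fun _ => 0) (Eventually.of_forall fun y' =>
      Subsingleton.elim _ _)).2 (Subsingleton.elim _ _)
  have h1 := H885.DK.dk_fib (d := n) (w := fun _ _ => 0) (K := (⊤ : Subgroup Γ)) hp (holB_zero _ F)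
    (fun _ _ _ => Subsingleton.elim _ _) (conn_zero F t) (fun y _ => reg_zero F y)
    (by rw [zero_add]) (finRep_top hfr)
    (by
      have hfi : ((⊤ : Subgroup Γ).subgroupOf ⊤).FiniteIndex := by
        rw [Subgroup.subgroupOf_self]; infer_instance
      exact cpt_zero hp F hfi t)
    hpot (π := π) hequi.form (fun y₀ _ v hv => nul0 hp hfg hfr hpot hequi y₀ v hv) hG.isOpen
    (fun k _ y hy => hGinv k y hy)
    (fun y e _ he => by
      obtain ⟨j, h1, h2, h3⟩ := hG.thin y e he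
      rw [← map_ep hp.cov he] at h2
      have h2' : ∃ᶠ y' in 𝓝 y, j (e (p y')) ≠ 0 := h2
      exact ⟨j, h1, h2'.mono fun y' h4 => ⟨Subsingleton.elim _ _, h4⟩, h3⟩)
    (fun z hz _ => hs z hz)
  filter_upwards [h1] with j hj y e he ξ
  exact hj y e (Subsingleton.elim _ _) he ξ (hVS y e ξ he)

variable {r s k m : ℕ} {v : E → Chart n X → (Fin (0 + r) → Cm n) → H} {U : Γ → (H →ₗᵢ[ℂ] H)}
  {N : Cm k →L[ℂ] Cm 0} {𝒢 : Set E}

/-- **LF**, `q = 0`: the sheets are locally finite modulo the kernel of `π`. -/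
theorem lf0 (hp : IsGalois Γ p) (hfg : Group.FG Γ) (hfr : H573.DK.FinRep Γ) {t : Cm 0}
    (hpot : VPot p F t W Θ u) (hequi : VEqui p F t ⊤ π Θ u)
    (hspan : ∀ g, (∀ y e, At e (p y) → ∀ ξ, π g (Θ y e ξ) = Θ y e ξ) → π g = 1)
    (hL : LeafE s p F m v U π Θ N 𝒢) (D : LeafDat 0 s k H) (hDN : ∀ x, D.N x = N) :
    ∃ r₀ > 0, ∀ K₀ : Set E, IsCompact K₀ → (∀ y ∈ K₀, NZ p v y) →
      {a : Γ ⧸ π.ker | ∃ g : Γ, (g : Γ ⧸ π.ker) = a ∧ ∃ y ∈ K₀, ∃ b ∈ ball D.b₀ r₀,
        Sh p v F D (g⁻¹ • y) b}.Finite := by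
  obtain ⟨r₀, hr₀, hni⟩ := Vale.Agent.P284.H212.niStmt n 0 r k s m X E Γ p hp (fun _ _ => 0) F
    (fun _ => 0) ⟨0, holB_zero _ F⟩ (fun _ _ => Subsingleton.elim _ _) W H π Θ v U N 𝒢 hL D hDN
  refine ⟨r₀, hr₀, fun K₀ hK₀ hNZ => ?_⟩
  by_contra hinf
  have hinf' := Set.Infinite.natEmbedding _ hinf
  have : FirstCountableTopology E := firstCountable_E (n := n) hp.cov
  choose g hg y hy b hb hSh using fun i => (hinf' i).2
  obtain ⟨y₀, hy₀, θ, hθ, hyθ⟩ := hK₀.tendsto_subseq hy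
  obtain ⟨σ, hσ, hmain⟩ := hni (g ∘ θ) (y ∘ θ) y₀ (b ∘ θ) hyθ (hNZ _ hy₀) (fun i => hb _)
    (fun i => hSh _)
  set h : ℕ → ℕ → Γ := fun i j => g (θ (σ i)) * (g (θ (σ j)))⁻¹ with hh
  -- eventually `π (h i j) Θ = Θ`
  have hfix : ∃ j₀, ∀ i ≥ j₀, ∀ j ≥ j₀, ∀ y e, At e (p y) → ∀ ξ,
      π (h i j) (Θ y e ξ) = Θ y e ξ := by
    by_contra hcon
    push Not at hcon
    choose i hi j hj hne' using hcon
    set hs : ℕ → Γ := fun l => h (i l) (j l) with hhs
    have hev : ∀ (P : ℕ → ℕ → Prop), (∃ j₀, ∀ i ≥ j₀, ∀ j ≥ j₀, P i j) →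
        (∀ᶠ l in atTop, P (i l) (j l)) ∧ ∀ᶠ l in atTop, P (i l) (i l) := by
      rintro P ⟨j₀, hj₀⟩
      constructor
      · filter_upwards [eventually_ge_atTop j₀] with l hl
        exact hj₀ _ (hl.trans (hi l)) _ (hl.trans (hj l))
      · filter_upwards [eventually_ge_atTop j₀] with l hl
        exact hj₀ _ (hl.trans (hi l)) _ (hl.trans (hi l))
    have hDK' := dk0 hp hfg hfr hpot hequi hL.good hL.inv (r := r)
      (V := fun l => (π ((h (i l) (i l))⁻¹ * hs l)).toLinearIsometry)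
      (by
        intro z hz
        obtain ⟨e', b', F', β', γ', τ', hL'⟩ := hL.chart z hz
        obtain ⟨ρ₁, hρ₁, h1⟩ := hmain z hz e' b' F' β' γ' τ' hL' 1 rfl
        refine slideAt_of hp.cov hL' hL.dim hL.Ninj (c := fun _ => 0)
          (h := fun l => h (i l) (i l)) (h' := hs) (fun l => rfl) hρ₁ hρ₁ (fun ε hε => ?_)
          (fun ε hε => ?_)
        · have := (hev _ (h1 ε hε)).2
          filter_upwards [this] with l hl
          have e1 : h (i l) (i l) =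
              1 * ((g ∘ θ) (σ (i l)) * ((g ∘ θ) (σ (i l)))⁻¹) * 1⁻¹ := by simp [hh]
          rw [e1]
          exact hl
        · have := (hev _ (h1 ε hε)).1
          filter_upwards [this] with l hl
          simpa using hl)
    obtain ⟨l, hl⟩ := hDK'.exists
    obtain ⟨y', e', he', ξ', hne⟩ := hne' l
    apply hne
    have h1 := hl y' e' he' ξ'
    have h2 : (h (i l) (i l))⁻¹ * hs l = hs l := by
      rw [hh]; simp
    rw [h2] at h1
    exact h1
  obtain ⟨j₀, hj₀⟩ := hfix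
  have hπ : π (h (j₀ + 1) j₀) = 1 := hspan _ (hj₀ _ (Nat.le_succ _) _ le_rfl)
  have hcoset : (g (θ (σ j₀)) : Γ ⧸ π.ker) = g (θ (σ (j₀ + 1))) := by
    rw [QuotientGroup.eq, MonoidHom.mem_ker, map_mul, map_inv]
    have h2 : g (θ (σ (j₀ + 1))) = h (j₀ + 1) j₀ * g (θ (σ j₀)) := by simp [hh]
    rw [h2, map_mul, hπ, one_mul, inv_mul_cancel]
  rw [hg, hg] at hcoset
  have h2 := hinf'.injective (Subtype.ext hcoset)
  have h3 := hσ.injective (hθ.injective h2)
  omega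

/-- local finiteness in the form of theorem T1', `q = 0` -/
theorem lfin0 (hp : IsGalois Γ p) (hfg : Group.FG Γ) (hfr : H573.DK.FinRep Γ) {t : Cm 0}
    (hpot : VPot p F t W Θ u) (hequi : VEqui p F t ⊤ π Θ u)
    (hspan : ∀ g, (∀ y e, At e (p y) → ∀ ξ, π g (Θ y e ξ) = Θ y e ξ) → π g = 1)
    (hL : LeafE s p F m v U π Θ N 𝒢) : LFin Γ m p v F := by
  have hk : k = 0 := by
    rcases Nat.eq_zero_or_pos k with h | h
    · exact h
    · exfalso
      have h1 := hL.Ninj (a₁ := 0) (a₂ := Pi.single ⟨0, h⟩ 1) (Subsingleton.elim _ _)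
      have h2 := congrFun h1 ⟨0, h⟩
      rw [Pi.single_eq_same] at h2
      exact zero_ne_one h2
  subst hk
  obtain rfl : s = 0 + r := by have := hL.dim; omega
  refine ⟨π.ker, fun g hg y => Subsingleton.elim _ _,
    fun g hg y e he ξ => hL.triv g hg y e he ξ, fun y₀ e b γ t' hN => ?_⟩
  let D : LeafDat 0 (0 + r) 0 H :=
    { b₀ := b (e (p y₀))
      γ := γ
      t := t'
      N := fun _ => N
      γan := hN.nf.γan
      imm := hN.nf.imm
      tan := hN.tan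
      Nan := analyticAt_const
      inj := hL.Ninj }
  obtain ⟨r₀, hr₀, hfin⟩ := lf0 hp hfg hfr hpot hequi hspan hL D (fun _ => rfl)
  -- `v ≠ 0` near `y₀`
  have hNZ : ∀ᶠ y in 𝓝 y₀, NZ p v y := by
    choose ξ hξ using fun l : Fin (0 + r) => hN.nf.bsurj (Pi.single l 1)
    have h2 : (Matrix.of fun i j => fderiv ℂ b (e (p y₀)) (ξ j) i) = 1 := by
      ext i' j'
      rw [Matrix.of_apply, hξ, Matrix.one_apply, Pi.single_apply]
    have h3 := hN.nf.nf.self_of_nhds ξ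
    rw [h2, Matrix.det_one, one_pow, one_smul] at h3
    obtain ⟨f, hf1, hf2⟩ := hL.form.hol y₀ e hN.nf.mem
    have h4 : v y₀ e ξ = f (e (p y₀), ξ) := hf2.self_of_nhds ξ
    have h5 : f (e (p y₀), ξ) ≠ 0 := by
      rw [← h4, h3]; exact hN.nf.imm.1
    have h6 : ContinuousAt (fun z => f (z, ξ)) (e (p y₀)) := by
      have h7 : ContinuousAt (fun z : Cm n => ((z, ξ) : Cm n × (Fin (0 + r) → Cm n)))
          (e (p y₀)) := (continuous_id.prodMk continuous_const).continuousAt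
      exact ContinuousAt.comp (g := f) (hf1 ξ).continuousAt h7
    have h7 := h6.eventually_ne h5
    rw [← ev_iff hp.cov hN.nf.mem] at h7
    filter_upwards [h7, hf2, at_ev hp.cov hN.nf.mem] with y h8 h9 h10
    exact ⟨e, h10, ξ, by rw [h9 ξ]; exact h8⟩
  obtain ⟨K₀, hK₀, hK₀c, hK₀s⟩ := exists_compact_nhds (n := n) hp.cov hNZ
  refine ⟨r₀, hr₀, K₀, hK₀, (hfin K₀ hK₀c hK₀s).subset ?_⟩
  rintro a ⟨g, hg, y, hy, x, hx, e', β, h1, h2, h3, h4⟩
  refine ⟨g, hg, y, hy, x, hx, e', β, h1, h2, h3, ?_⟩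
  filter_upwards [h4] with y' hy'
  refine ⟨hy'.1, ?_⟩
  rw [Subsingleton.elim (F y' - D.t (β (e' (p y')))) 0]
  exact Submodule.zero_mem _

end

end Vale.Agent.P284.H378.T
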